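import Vale.Agent.P352R.Mu.Mul

/-!
# P352R MU — the multiplier theorem without symmetry (row MUL, text unfolded)
-/

set_option autoImplicit false
set_option linter.all false

open MeasureTheory Filter Topology Metric
open scoped ENNReal ComplexConjugate Classical SchwartzMap ContDiff

namespace Vale.Agent.P352R.Mu

open Vale.Agent.P352.GF Vale.Agent.P352W.Cn Vale.Agent.P352W.Fk Vale.Agent.P352W.Ft
open Vale.Agent.P352X.ST (tsl cnv cnv_comm clm_cnv sn sn_comp clm_sn_c)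
open Complex (exp I)

noncomputable section

theorem meas_glue {u : ℕ → Cf → ℂ} (h : ∀ j, Measurable (u j)) :
    Measurable fun c : Cf => u ⌈‖(mu c).sum‖⌉₊ c := by
  have h1 : Measurable fun y : ℕ × Cf => u y.1 y.2 := measurable_from_prod_countable_right h
  exact h1.comp (meas_P.norm.nat_ceil.prodMk measurable_id)

theorem mul_gen (Λ : Sch →L[ℂ] Fo)
    (ht : ∀ a g, Λ (tsl a g) =ᵐ[Lam] fun c => exp (I * mdot (mu c).sum a) * Λ g c) :
    ∃ (F : Cf → ℂ) (M : ℕ), Measurable F ∧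
      Integrable (fun c => ‖F c‖ ^ 2 / rr (mu c).sum ^ M) Lam ∧
      ∀ g, Λ g =ᵐ[Lam] fun c => F c * ft (ev g) (mu c).sum := by
  obtain ⟨b, b1, b2⟩ := ex_cut
  have mF : Measurable fun c : Cf => Λ (ftS.symm (b ⌈‖(mu c).sum‖⌉₊)) c :=
    meas_glue (u := fun j => Λ (ftS.symm (b j))) fun j => (Lp.stronglyMeasurable _).measurable
  obtain ⟨C, M, hC, hM⟩ := clm_sn_c (Λ.comp ftS.symm.toContinuousLinearMap)
  obtain ⟨K, hK, hb⟩ := b2 M
  refine ⟨_, (M + 1) * 2, mF, ?_, fun g => ?_⟩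
  swap
  · filter_upwards [ae_all_iff.2 fun j => cross meas_P Λ ht (ftS.symm (b j)) g] with c h2
    have := h2 ⌈‖(mu c).sum‖⌉₊
    rw [← ftS_apply, ftS.apply_symm_apply, b1 _ _ (Nat.le_ceil _), one_mul] at this
    rw [this, mul_comm]
  have mG : Measurable fun c : Cf =>
      ‖Λ (ftS.symm (b ⌈‖(mu c).sum‖⌉₊)) c‖ ^ 2 / rr (mu c).sum ^ ((M + 1) * 2) :=
    (mF.norm.pow_const 2).div ((continuous_rr.measurable.comp meas_P).pow_const _)
  let s : ℕ → Set Cf := fun j => {c | ⌈‖(mu c).sum‖⌉₊ = j}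
  have ms' : ∀ j, MeasurableSet (s j) := fun j =>
    meas_P.norm.nat_ceil (measurableSet_singleton j)
  have hj : ∀ j : ℕ, (0 : ℝ) < (j : ℝ) + 1 := fun j => by positivity
  have i0 : ∀ j : ℕ, Integrable
      (fun c => ‖Λ (ftS.symm (b j)) c‖ ^ 2 * ((((j : ℝ) + 1) ^ (M + 1)) ^ 2)⁻¹) Lam := fun j =>
    ((memLp_two_iff_integrable_sq_norm (Lp.aestronglyMeasurable _)).1
      (Lp.memLp (Λ (ftS.symm (b j))))).mul_const _
  have le : ∀ j : ℕ, ∀ᵐ c ∂Lam.restrict (s j),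
      ‖‖Λ (ftS.symm (b ⌈‖(mu c).sum‖⌉₊)) c‖ ^ 2 / rr (mu c).sum ^ ((M + 1) * 2)‖ ≤
        ‖Λ (ftS.symm (b j)) c‖ ^ 2 * ((((j : ℝ) + 1) ^ (M + 1)) ^ 2)⁻¹ := fun j => by
    filter_upwards [ae_restrict_mem (ms' j)] with c h1
    have h3 : ⌈‖(mu c).sum‖⌉₊ = j := h1
    have h4 : (j : ℝ) + 1 ≤ rr (mu c).sum := by
      have := Nat.ceil_lt_add_one (norm_nonneg (mu c).sum)
      rw [h3] at this
      unfold rr; linarith
    have := rr_pos (mu c).sum
    rw [Real.norm_of_nonneg (by positivity), h3, pow_mul, div_eq_mul_inv]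
    have := hj j
    gcongr
  have i1 : ∀ j, IntegrableOn (fun c =>
      ‖Λ (ftS.symm (b ⌈‖(mu c).sum‖⌉₊)) c‖ ^ 2 / rr (mu c).sum ^ ((M + 1) * 2)) (s j) Lam :=
    fun j => (i0 j).integrableOn.mono' mG.aestronglyMeasurable (le j)
  rw [← integrableOn_univ, show (Set.univ : Set Cf) = ⋃ j, s j from
    (Set.eq_univ_of_forall fun c => Set.mem_iUnion.2 ⟨⌈‖(mu c).sum‖⌉₊, rfl⟩).symm]
  refine integrableOn_iUnion_of_summable_integral_norm i1 ?_
  have sm : Summable fun j : ℕ => (C * K) ^ 2 * (1 / ((j : ℝ) + 1) ^ 2) :=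
    Summable.mul_left _ (by
      simpa using (summable_nat_add_iff 1).2 (Real.summable_one_div_nat_pow.2 one_lt_two))
  refine sm.of_nonneg_of_le (fun j => integral_nonneg fun c => norm_nonneg _) fun j => ?_
  refine (integral_mono_ae (i1 j).norm (i0 j).integrableOn (le j)).trans
    ((setIntegral_le_integral (i0 j) (ae_of_all _ fun c => by have := hj j; positivity)).trans ?_)
  have n2 : ∫ c, ‖Λ (ftS.symm (b j)) c‖ ^ 2 ∂Lam = ‖Λ (ftS.symm (b j))‖ ^ 2 := by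
    rw [@norm_sq_eq_re_inner ℂ, L2.inner_def, ← integral_re (L2.integrable_inner _ _)]
    exact integral_congr_ae (ae_of_all _ fun c => @norm_sq_eq_re_inner ℂ _ _ _ _ _)
  have n3 : ‖Λ (ftS.symm (b j))‖ ≤ C * (K * ((j : ℝ) + 1) ^ M) :=
    (hM (b j)).trans (mul_le_mul_of_nonneg_left (hb j) hC)
  rw [integral_mul_const, n2]
  have := hj j
  refine (mul_le_mul_of_nonneg_right (pow_le_pow_left₀ (norm_nonneg _) n3 2) (by positivity)).trans
    (le_of_eq ?_)
  field_simp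
  ring

end

end Vale.Agent.P352R.Mu
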