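import Vale.Agent.P352R.Df
import Vale.Agent.P352R.Mu.Gen

/-! # P352R MU — row MUL -/

set_option autoImplicit false

namespace Vale.Agent.P352R

theorem mul_row : MUL := fun Λ h => Mu.mul_gen Λ h

end Vale.Agent.P352R
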