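import Vale.Agent.P352X.ST.Syn
import Vale.Agent.P352W.Fk.Bas
import Vale.Agent.P352W.Cn.Ft

/-!
# P352R MU — a translation covariant vector valued distribution is a multiplier
-/

set_option autoImplicit false
set_option linter.all false

open MeasureTheory Filter Topology Metric
open scoped ENNReal ComplexConjugate Classical SchwartzMap ContDiff

namespace Vale.Agent.P352R.Mu

open Vale.Agent.P352.GF Vale.Agent.P352W.Cn Vale.Agent.P352W.Fk Vale.Agent.P352W.Ft
open Vale.Agent.P352X.ST (tsl cnv cnv_comm clm_cnv sn sn_comp clm_sn_c)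
open Complex (exp I)

noncomputable section

section gen

variable {X : Type*} [MeasurableSpace X] {μ : Measure X} [SFinite μ] {P : X → V}

theorem mem_ft (hP : Measurable P) (v : Lp ℂ 2 μ) {f : Fn} (hf : IsTest f) :
    MemLp (fun c => ft f (P c) * v c) 2 μ :=
  ((Lp.memLp v).const_mul ((∫ z, ‖f z‖ : ℝ) : ℂ)).of_le
    (((meas_ft hf).comp hP).aestronglyMeasurable.mul (Lp.aestronglyMeasurable v))
    (ae_of_all _ fun c => by
      rw [norm_mul, norm_mul, Complex.norm_real]
      exact mul_le_mul_of_nonneg_right ((norm_ft_le f _).trans (le_abs_self _)) (norm_nonneg _))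

/-- superposition of phases -/
theorem int_phase (hP : Measurable P) (v : Lp ℂ 2 μ) (u : V → Lp ℂ 2 μ)
    (hu : ∀ x, u x =ᵐ[μ] fun c => exp (I * mdot (P c) x) * v c) {f : Fn} (hf : IsTest f)
    (hi : Integrable fun x => f x • u x) :
    (∫ x, f x • u x : Lp ℂ 2 μ) =ᵐ[μ] fun c => ft f (P c) * v c := by
  have m := mem_ft hP v hf
  suffices h : (∫ x, f x • u x : Lp ℂ 2 μ) = m.toLp _ by rw [h]; exact m.coeFn_toLp
  refine ext_inner_left ℂ fun w => ?_
  rw [← integral_inner hi]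
  have i0 : Integrable (fun c => conj (w c) * v c) μ :=
    (L2.integrable_inner (𝕜 := ℂ) w v).congr (ae_of_all _ fun c => RCLike.inner_apply' _ _)
  have me : Measurable fun z : V × X => exp (I * mdot (P z.2) z.1) :=
    Complex.measurable_exp.comp (measurable_const.mul (Complex.measurable_ofReal.comp
      (continuous_mdot.measurable.comp ((hP.comp measurable_snd).prodMk measurable_fst))))
  have i1 : Integrable (fun z : V × X => exp (I * mdot (P z.2) z.1) * (f z.1 * (conj (w z.2) * v z.2)))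
      (volume.prod μ) :=
    ((test_int hf).mul_prod i0).bdd_mul (c := 1) me.aestronglyMeasurable
      (ae_of_all _ fun z => (norm_ex _).le)
  have e1 : ∀ x, inner ℂ w (f x • u x) =
      ∫ c, exp (I * mdot (P c) x) * (f x * (conj (w c) * v c)) ∂μ := fun x => by
    rw [inner_smul_right, L2.inner_def, ← integral_const_mul]
    refine integral_congr_ae ?_
    filter_upwards [hu x] with c hc
    rw [hc, RCLike.inner_apply']
    ring
  simp only [e1]
  rw [integral_integral_swap i1, L2.inner_def]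
  refine integral_congr_ae ?_
  filter_upwards [m.coeFn_toLp] with c hc
  rw [hc, RCLike.inner_apply', ft, ← integral_mul_const, ← integral_const_mul]
  exact integral_congr_ae (ae_of_all _ fun x => by simp only; ring)

/-- the cross relation -/
theorem cross (hP : Measurable P) (Λ : Sch →L[ℂ] Lp ℂ 2 μ)
    (ht : ∀ a g, Λ (tsl a g) =ᵐ[μ] fun c => exp (I * mdot (P c) a) * Λ g c) (f g : Sch) :
    ∀ᵐ c ∂μ, ft (ev f) (P c) * Λ g c = ft (ev g) (P c) * Λ f c := by
  have k : ∀ f g : Sch, Λ (cnv volume f g) =ᵐ[μ] fun c => ft (ev f) (P c) * Λ g c := fun f g => by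
    rw [(clm_cnv Λ f g).2]
    exact int_phase hP (Λ g) _ (fun x => ht x g) (test_ev f) (clm_cnv Λ f g).1
  have k2 := k g f
  rw [cnv_comm] at k2
  exact (k f g).symm.trans k2

end gen

/-- cutoffs with polynomial growth of the seminorms -/
theorem ex_cut : ∃ b : ℕ → Sch, (∀ (j : ℕ) (p : V), ‖p‖ ≤ j → b j p = 1) ∧
    ∀ N, ∃ C, 0 ≤ C ∧ ∀ j : ℕ, sn V ℂ N (b j) ≤ C * ((j : ℝ) + 1) ^ N := by
  let b : ContDiffBump (0 : V) := ⟨1, 2, one_pos, one_lt_two⟩
  have hcs : HasCompactSupport fun z => (b z : ℂ) :=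
    b.hasCompactSupport.comp_left (g := fun x : ℝ => (x : ℂ)) (by simp)
  let g : Sch := hcs.toSchwartzMap (Complex.ofRealCLM.contDiff.comp b.contDiff)
  have hj : ∀ j : ℕ, (0 : ℝ) < (j : ℝ) + 1 := fun j => by positivity
  let e : ℕ → V ≃L[ℝ] V := fun j =>
    ContinuousLinearEquiv.equivOfInverse (((j : ℝ) + 1)⁻¹ • ContinuousLinearMap.id ℝ V)
      (((j : ℝ) + 1) • ContinuousLinearMap.id ℝ V)
      (fun x => by simp [smul_smul, (hj j).ne']) fun x => by simp [smul_smul, (hj j).ne']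
  have he : ∀ j p, ‖e j p‖ = ((j : ℝ) + 1)⁻¹ * ‖p‖ := fun j p => by
    change ‖((j : ℝ) + 1)⁻¹ • p‖ = _
    rw [norm_smul, Real.norm_of_nonneg (inv_pos.2 (hj j)).le]
  refine ⟨fun j => cE (e j) g, fun j p hp => ?_, fun N => ⟨2 ^ N * sn V ℂ N g, by positivity,
    fun j => ?_⟩⟩
  · change (b (e j p) : ℂ) = 1
    rw [b.one_of_mem_closedBall, Complex.ofReal_one]
    rw [mem_closedBall_zero_iff, he]
    change _ ≤ (1 : ℝ)
    rw [inv_mul_le_iff₀ (hj j)]
    linarith
  · have h1 : (1 : ℝ) ≤ (j : ℝ) + 1 := by linarith [(Nat.cast_nonneg j : (0 : ℝ) ≤ j)]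
    refine (sn_comp (e j : V →L[ℝ] V) (M := 1) (K := (j : ℝ) + 1) le_rfl ?_ h1 (fun z => ?_) g _
      (fun _ => rfl) N).trans (le_of_eq (by ring))
    · refine ContinuousLinearMap.opNorm_le_bound _ zero_le_one fun z => ?_
      rw [ContinuousLinearEquiv.coe_coe, he]
      exact mul_le_mul_of_nonneg_right (inv_le_one_of_one_le₀ h1) (norm_nonneg _)
    · rw [ContinuousLinearEquiv.coe_coe, he, ← mul_assoc, mul_inv_cancel₀ (hj j).ne', one_mul]

/-- vectors with a symmetric representative -/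
def Sy (v : Fo) : Prop := ∃ ψ : Wf, (Ms fun _ : Unit => ψ) ∧ v =ᵐ[Lam] fun c => ψ (mu c)

theorem sy_toL {ψ : Wf} (h : Nice ψ) : Sy (toL ψ) := ⟨ψ, h.1, toL_ae h.memLp⟩

theorem closed_sy : IsClosed {v | Sy v} := by
  refine isClosed_of_closure_subset fun v hv => ?_
  obtain ⟨u, hu, hl⟩ := mem_closure_iff_seq_limit.1 hv
  choose ψ hm he using hu
  obtain ⟨n, -, hn⟩ := (tendstoInMeasure_of_tendsto_Lp hl).exists_seq_tendsto_ae
  refine ⟨fun σ => limUnder atTop fun i => ψ (n i) σ, fun k => ?_, ?_⟩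
  · exact (StronglyMeasurable.limUnder fun i => (hm (n i) k).stronglyMeasurable).measurable
  · filter_upwards [hn, ae_all_iff.2 he] with c h1 h2
    simp only [h2] at h1
    exact h1.limUnder_eq.symm

theorem sy_cpl {D : Type*} [UniformSpace D] {ι : UniformSpace.Completion D → Fo}
    (hι : Continuous ι) (h : ∀ v : D, Sy (ι v)) (w : UniformSpace.Completion D) : Sy (ι w) :=
  UniformSpace.Completion.induction_on w (closed_sy.preimage hι) h

theorem meas_sum (n : ℕ) : Measurable fun x : Fin n → V => (ms x).sum := by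
  have : ∀ x : Fin n → V, (ms x).sum = ∑ i, x i := fun x => by simpa using sum_ms id x
  simp only [this]
  exact Finset.measurable_sum _ fun i _ => measurable_pi_apply i

theorem meas_P : Measurable fun c : Cf => (mu c).sum := meas_sig meas_sum

/-- gluing along the size of the total momentum -/
theorem ms_glue {ψ : ℕ → Wf} (h : ∀ j, Ms fun _ : Unit => ψ j) :
    Ms fun (_ : Unit) (σ : Multiset V) => ψ ⌈‖σ.sum‖⌉₊ σ := fun n => by
  have h1 : Measurable fun y : ℕ × (Unit × (Fin n → V)) => ψ y.1 (ms y.2.2) :=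
    measurable_from_prod_countable_right fun j => h j n
  exact h1.comp ((((meas_sum n).comp measurable_snd).norm.nat_ceil).prodMk measurable_id)

/-- **The multiplier theorem**, for a continuous linear map. -/
theorem mult0 (Λ : Sch →L[ℂ] Fo)
    (ht : ∀ a g, Λ (tsl a g) =ᵐ[Lam] fun c => exp (I * mdot (mu c).sum a) * Λ g c)
    (hs : ∀ g, Sy (Λ g)) : ∃ F : Wf, (Ms fun _ : Unit => F) ∧
      (∀ g, Λ g =ᵐ[Lam] fun c => F (mu c) * ft (ev g) (mu c).sum) ∧
      ∃ N : ℕ, MemLp (fun c => F (mu c) / (rr (mu c).sum : ℂ) ^ N) 2 Lam := by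
  obtain ⟨b, b1, b2⟩ := ex_cut
  choose ψ hm he using fun j => hs (ftS.symm (b j))
  have mF := ms_glue hm
  refine ⟨fun σ => ψ ⌈‖σ.sum‖⌉₊ σ, mF, fun g => ?_, ?_⟩
  · filter_upwards [ae_all_iff.2 he,
      ae_all_iff.2 fun j => cross meas_P Λ ht (ftS.symm (b j)) g] with c h1 h2
    have := h2 ⌈‖(mu c).sum‖⌉₊
    rw [← ftS_apply, ftS.apply_symm_apply, b1 _ _ (Nat.le_ceil _), one_mul, h1] at this
    rw [this, mul_comm]
  obtain ⟨C, M, hC, hM⟩ := clm_sn_c (Λ.comp ftS.symm.toContinuousLinearMap)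
  obtain ⟨K, hK, hb⟩ := b2 M
  have mr : Measurable fun c : Cf => (rr (mu c).sum : ℂ) ^ (M + 1) :=
    (Complex.measurable_ofReal.comp (continuous_rr.measurable.comp meas_P)).pow_const _
  have mG := mF.meas1.div mr
  refine ⟨M + 1, (memLp_two_iff_integrable_sq_norm mG.aestronglyMeasurable).2 ?_⟩
  let s : ℕ → Set Cf := fun j => {c | ⌈‖(mu c).sum‖⌉₊ = j}
  have ms' : ∀ j, MeasurableSet (s j) := fun j =>
    meas_P.norm.nat_ceil (measurableSet_singleton j)
  have hj : ∀ j : ℕ, (0 : ℝ) < (j : ℝ) + 1 := fun j => by positivity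
  have i0 : ∀ j : ℕ, Integrable (fun c => ‖Λ (ftS.symm (b j)) c‖ ^ 2 * ((((j : ℝ) + 1) ^ (M + 1)) ^ 2)⁻¹)
      Lam := fun j => ((memLp_two_iff_integrable_sq_norm (Lp.aestronglyMeasurable _)).1
        (Lp.memLp (Λ (ftS.symm (b j))))).mul_const _
  have le : ∀ j : ℕ, ∀ᵐ c ∂Lam.restrict (s j),
      ‖‖ψ ⌈‖(mu c).sum‖⌉₊ (mu c) / (rr (mu c).sum : ℂ) ^ (M + 1)‖ ^ 2‖ ≤
        ‖Λ (ftS.symm (b j)) c‖ ^ 2 * ((((j : ℝ) + 1) ^ (M + 1)) ^ 2)⁻¹ := fun j => by
    filter_upwards [ae_restrict_mem (ms' j), ae_restrict_of_ae (he j)] with c h1 h2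
    have h3 : ⌈‖(mu c).sum‖⌉₊ = j := h1
    have h4 : (j : ℝ) + 1 ≤ rr (mu c).sum := by
      have := Nat.ceil_lt_add_one (norm_nonneg (mu c).sum)
      rw [h3] at this
      unfold rr; linarith
    rw [Real.norm_of_nonneg (sq_nonneg _), h2, h3, norm_div, div_pow, norm_pow, Complex.norm_real,
      Real.norm_of_nonneg (rr_pos _).le, div_eq_mul_inv]
    have := hj j
    gcongr
  have i1 : ∀ j, IntegrableOn
      (fun c => ‖ψ ⌈‖(mu c).sum‖⌉₊ (mu c) / (rr (mu c).sum : ℂ) ^ (M + 1)‖ ^ 2) (s j) Lam := fun j =>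
    (i0 j).integrableOn.mono' (mG.norm.pow_const 2).aestronglyMeasurable (le j)
  rw [← integrableOn_univ, show (Set.univ : Set Cf) = ⋃ j, s j from
    (Set.eq_univ_of_forall fun c => Set.mem_iUnion.2 ⟨⌈‖(mu c).sum‖⌉₊, rfl⟩).symm]
  refine integrableOn_iUnion_of_summable_integral_norm i1 ?_
  have sm : Summable fun j : ℕ => (C * K) ^ 2 * (1 / ((j : ℝ) + 1) ^ 2) :=
    Summable.mul_left _ (by
      simpa using (summable_nat_add_iff 1).2 (Real.summable_one_div_nat_pow.2 one_lt_two))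
  refine sm.of_nonneg_of_le (fun j => integral_nonneg fun c => norm_nonneg _) fun j => ?_
  refine (integral_mono_ae (i1 j).norm (i0 j).integrableOn (le j)).trans
    ((setIntegral_le_integral (i0 j) (ae_of_all _ fun c => by have := hj j; positivity)).trans ?_)
  have n2 : ∫ c, ‖Λ (ftS.symm (b j)) c‖ ^ 2 ∂Lam = ‖Λ (ftS.symm (b j))‖ ^ 2 := by
    rw [@norm_sq_eq_re_inner ℂ, L2.inner_def, ← integral_re (L2.integrable_inner _ _)]
    exact integral_congr_ae (ae_of_all _ fun c => @norm_sq_eq_re_inner ℂ _ _ _ _ _)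
  have n3 : ‖Λ (ftS.symm (b j))‖ ≤ C * (K * ((j : ℝ) + 1) ^ M) :=
    (hM (b j)).trans (mul_le_mul_of_nonneg_left (hb j) hC)
  rw [integral_mul_const, n2]
  have := hj j
  refine (mul_le_mul_of_nonneg_right (pow_le_pow_left₀ (norm_nonneg _) n3 2) (by positivity)).trans
    (le_of_eq ?_)
  field_simp
  ring

/-- the continuous linear map of a vector valued distribution -/
def clm {G : Type*} [NormedAddCommGroup G] [NormedSpace ℂ G] (T : Fn → G)
    (hl : ∀ (f g : Fn) (c : ℂ), IsTest f → IsTest g → T (fun x => f x + c * g x) = T f + c • T g)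
    (hc : Continuous fun g => T (ev g)) : Sch →L[ℂ] G where
  toFun g := T (ev g)
  map_add' f g := by
    have := hl (ev f) (ev g) 1 (test_ev f) (test_ev g)
    simp only [one_mul, one_smul] at this
    exact this
  map_smul' c g := by
    have h0 := hl (ev 0) (ev 0) 1 (test_ev 0) (test_ev 0)
    have h1 := hl (ev 0) (ev g) c (test_ev 0) (test_ev g)
    have e0 : (fun x => ev 0 x + 1 * ev 0 x) = ev 0 := funext fun x => by simp [ev]
    have e1 : (fun x => ev 0 x + c * ev g x) = ev (c • g) := funext fun x => by simp [ev]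
    rw [e0, one_smul, left_eq_add] at h0
    rw [e1, h0, zero_add] at h1
    exact h1
  cont := hc

/-- **The multiplier theorem.** -/
theorem mult (T : Fn → Fo)
    (hl : ∀ (f g : Fn) (c : ℂ), IsTest f → IsTest g → T (fun x => f x + c * g x) = T f + c • T g)
    (hc : Continuous fun g => T (ev g))
    (ht : ∀ a f, IsTest f →
      T f =ᵐ[Lam] fun c => exp (I * mdot (mu c).sum a) * T (fun x => f (x + a)) c)
    (hs : ∀ f, IsTest f → Sy (T f)) : ∃ F : Wf, (Ms fun _ : Unit => F) ∧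
      (∀ f, IsTest f → T f =ᵐ[Lam] fun c => F (mu c) * ft f (mu c).sum) ∧
      ∃ N : ℕ, MemLp (fun c => F (mu c) / (rr (mu c).sum : ℂ) ^ N) 2 Lam := by
  obtain ⟨F, h1, h2, h3⟩ := mult0 (clm T hl hc) (fun a g => by
    have := ht a _ (test_ev (tsl a g))
    rwa [show (fun x => ev (tsl a g) (x + a)) = ev g from funext fun x =>
      congrArg g (add_sub_cancel_right x a)] at this) fun g => hs _ (test_ev g)
  exact ⟨F, h1, fun f ⟨g, e⟩ => e ▸ h2 g, h3⟩

end

end Vale.Agent.P352R.Mu
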